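import Vale.Agent.P296.St

/-! Definitions for the counterexample to the Griffiths conjecture (P296). -/

namespace Vale.Agent.P296

open Matrix Filter Topology Laplacian

noncomputable section

abbrev V := Fin 3 → ℂ

abbrev Zc := Fin 8 → ℂ

abbrev M3 := Matrix (Fin 3) (Fin 3) ℂ

abbrev M2 := Matrix (Fin 2) (Fin 2) ℂ

def D0 : M3 := !![-3, 4, 8; 4, -5, -10; 8, -10, 4]

def D1 : M3 := !![-3, 4, 2; 4, -10, -7; 2, -7, -10]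

def D2 : M3 := !![-6, 0, -6; 0, 3, -1; -6, -1, -6]

def Dj : Fin 3 → M3 := ![D0, D1, D2]

/-- the net of dual conics -/
def Dm (l : V) : M3 := l 0 • D0 + l 1 • D1 + l 2 • D2

def bil (M : M3) (u v : V) : ℂ := u ⬝ᵥ M *ᵥ v

/-- dual conic of the quadratic map `qv A B C` -/
def Gram (A B C : V) : M3 := of fun i j => B i * B j - (A i * C j + C i * A j) / 2

def qv (A B C : V) (v : Fin 2 → ℂ) : V :=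
  fun k => A k * v 0 ^ 2 + 2 * B k * (v 0 * v 1) + C k * v 1 ^ 2

def Herm (f : (Fin 2 → ℂ) → ℝ) : Prop :=
  ∃ (h1 h2 : ℝ) (h3 : ℂ), ∀ v, f v = h1 * ‖v 0‖ ^ 2 + h2 * ‖v 1‖ ^ 2 +
    2 * (h3 * v 0 * (starRingEnd ℂ) (v 1)).re

def Yp (y : ℂ × ℂ) : V := ![1, y.1, y.2]

def m1 (y : ℂ × ℂ) : V := ![-y.1, 1, 0]

def m2 (y : ℂ × ℂ) : V := ![-y.2, 0, 1]

def Ry (y : ℂ × ℂ) : M3 := of ![fun j => bil (Dj j) (m1 y) (m1 y),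
  fun j => bil (Dj j) (m1 y) (m2 y), fun j => bil (Dj j) (m2 y) (m2 y)]

/-- the members of the net through `Yp y`, by the slope `s` of the tangent line -/
def Lam (y : ℂ × ℂ) (s : ℂ) : V := (Ry y).adjugate *ᵥ ![1, s, s ^ 2]

def Cy (y : ℂ × ℂ) (l : V) (κ : ℂ) : V := fun k => (-2 * Dm l 0 k + Yp y k * Dm l 0 0) / κ

/-- discriminant of `a x^4 + 4 b x^3 + 6 c x^2 + 4 d x + e` -/
def disc4 (a b c d e : ℂ) : ℂ := (a * e - 4 * b * d + 3 * c ^ 2) ^ 3 -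
  27 * (a * c * e + 2 * b * c * d - a * d ^ 2 - b ^ 2 * e - c ^ 3) ^ 2

def gd (l : V) : ℂ := l 0 * l 1 * l 2 * (Dm l).det * (Dm l 0 0 * Dm l 1 1 - Dm l 0 1 ^ 2) *
  disc4 (Dm l 0 0) (-Dm l 0 1) ((Dm l 0 2 + 2 * Dm l 1 1) / 3) (-Dm l 1 2) (Dm l 2 2)

/-- `f` has a strictly subharmonic support from below at `z₀` -/
def Sup (f : ℂ → ℝ) (z₀ : ℂ) : Prop :=
  ∃ g : ℂ → ℝ, ContDiffAt ℝ 2 g z₀ ∧ (∀ᶠ z in 𝓝 z₀, g z ≤ f z) ∧ g z₀ = f z₀ ∧ 0 < (Δ g) z₀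

def NoMaxAt (G : ℂ → ℝ) (z : ℂ) : Prop :=
  ∀ p : ℂ → ℂ, AnalyticAt ℂ p z → ¬IsLocalMax (fun s => G s * Real.exp (p s).re) z

/-- logarithmically subharmonic off a finite set, bounded, on the unit disc -/
structure DI (F : ℂ → ℝ) (S : Set ℂ) : Prop where
  fin : S.Finite
  dis : Disjoint S (Metric.sphere 0 1)
  cont : ContinuousOn F (Metric.closedBall 0 1 \ S)
  pos : ∀ z ∈ Metric.closedBall 0 1 \ S, 0 < F z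
  bd : ∃ K, ∀ z ∈ Metric.closedBall 0 1 \ S, F z ≤ K
  nm : ∀ z ∈ Metric.ball 0 1 \ S, NoMaxAt F z

/-- logarithmically subharmonic off a finite set, of growth `ε` -/
structure SI (G : ℂ → ℝ) (S : Set ℂ) (ε : ℝ) : Prop where
  fin : S.Finite
  cont : ContinuousOn G Sᶜ
  pos : ∀ z ∉ S, 0 < G z
  bd : ∃ K, ∀ z ∉ S, G z ≤ K * (1 + ‖z‖) ^ ε
  nm : ∀ z ∉ S, NoMaxAt G z

/-- what the averaged metric satisfies -/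
structure GI (N : ℕ) (G : V → V → ℝ) : Prop where
  herm : ∀ l A B C κ, gd l ≠ 0 → Dm l = (κ : ℂ) • Gram A B C →
    Herm (fun v => G l (qv A B C v)) ∧ ∀ v, v ≠ 0 → 0 < G l (qv A B C v)
  hom : ∀ y s (τ : ℂ), τ ≠ 0 → (Ry y).det ≠ 0 → gd (Lam y s) ≠ 0 →
    G (τ • Lam y s) (Yp y) = ‖τ‖ ^ (1 / (N : ℝ)) * G (Lam y s) (Yp y)
  bd : ∃ K, ∀ y s, (Ry y).det ≠ 0 → gd (Lam y s) ≠ 0 →
    G (Lam y s) (Yp y) ≤ K * ‖Lam y s‖ ^ (1 / (N : ℝ)) * ‖Yp y‖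
  cont : ContinuousOn (fun p : (ℂ × ℂ) × ℂ => G (Lam p.1 p.2) (Yp p.1))
    {p | (Ry p.1).det ≠ 0 ∧ gd (Lam p.1 p.2) ≠ 0}
  nm : ∀ y s, (Ry y).det ≠ 0 → gd (Lam y s) ≠ 0 → NoMaxAt (fun s => G (Lam y s) (Yp y)) s

/-- parameters `((y, (t, t')), (s, s'))` -/
abbrev Pm := ((ℂ × ℂ) × (ℂ × ℂ)) × (ℂ × ℂ)

def Xi (w : Pm) : V × V := (w.1.2.1 • Lam w.1.1 w.2.1, w.1.2.2 • Lam w.1.1 w.2.2)

def Nd (w : Pm) : Prop := (Ry w.1.1).det ≠ 0 ∧ w.2.1 ≠ w.2.2 ∧ w.1.2.1 ≠ 0 ∧ w.1.2.2 ≠ 0 ∧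
  gd (Lam w.1.1 w.2.1) ≠ 0 ∧ gd (Lam w.1.1 w.2.2) ≠ 0

def Cmp (G : V → V → ℝ) (δ : ℝ) (w : Pm) : Prop :=
  G (Xi w).1 (Yp w.1.1) ≤ (1 + δ) * G (Xi w).2 (Yp w.1.1) ∧
    G (Xi w).2 (Yp w.1.1) ≤ (1 + δ) * G (Xi w).1 (Yp w.1.1)

def lb0 : V := ![-1, 1, 1]

def lb1 : V := ![1, -1, 1]

def lb2 : V := ![1, 1, -1]

/-- the six base configurations -/
def wb : Fin 6 → Pm := ![(((0, 1), (-1 / 77, 4 / 77)), (-1, -1 / 2)),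
  (((-1, 1), (-4 / 21, 1 / 21)), (1 / 2, 1)), (((1, -1), (4 / 567, -1 / 567)), (-5 / 2, 1)),
  (((0, 1), (4 / 77, -9 / 77)), (-1 / 2, 4 / 3)), (((-1, 1), (1 / 21, -1 / 21)), (1, 4)),
  (((-1, 0), (1 / 40, -1 / 40)), (-2, 0))]

/-! The surface and the bundle. -/

/-- points `(η, μ, b)` -/
abbrev P6 := ℂ × V × (ℂ × ℂ)

def pw (N : ℕ) (μ : V) : V := fun j => μ j ^ (2 * N)

def l1 (e0 e1 : ℂ) : V := ![e1, -e0, 0]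

def l2 (e0 e1 : ℂ) : V := ![0, e1, -e0]

def nv (e0 e1 : ℂ) : V := ![e1 ^ 2, -2 * e0 * e1, e0 ^ 2]

def Rc (M : M3) (e0 e1 : ℂ) : V :=
  ![bil M (l1 e0 e1) (l1 e0 e1), bil M (l1 e0 e1) (l2 e0 e1), bil M (l2 e0 e1) (l2 e0 e1)]

def bb (b1 b2 : ℂ) : V := ![b1 ^ 2, b1 * b2, b2 ^ 2]

def Feq (N : ℕ) (p : (ℂ × ℂ) × V × (ℂ × ℂ)) : V :=
  Rc (Dm (pw N p.2.1)) p.1.1 p.1.2 - bb p.2.2.1 p.2.2.2

def Phi (N : ℕ) (x : P6) : V × V := (Feq N ((1, x.1), x.2), pw N x.2.1)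

def A0 (e : ℂ) : V := ![1, e, e ^ 2]

def B0 (e b1 b2 : ℂ) : V := ![0, -b1, -b2 - e * b1]

def C0 (e : ℂ) (l : V) : V := fun k => -2 * Dm l 0 k + A0 e k * Dm l 0 0

def A1 (e : ℂ) : V := ![e ^ 2, e, 1]

def B1 (e b1 b2 : ℂ) : V := ![b1 + e * b2, b2, 0]

def C1 (e : ℂ) (l : V) : V := fun k => -2 * Dm l 2 k + A1 e k * Dm l 2 2

def q0 (N : ℕ) (x : P6) (v : Fin 2 → ℂ) : V :=
  qv (A0 x.1) (B0 x.1 x.2.2.1 x.2.2.2) (C0 x.1 (pw N x.2.1)) v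

def Z0 (N : ℕ) : Set P6 := {x | (Phi N x).1 = 0 ∧ x.2.1 0 ≠ 0}

/-- what the dual metric satisfies in the first chart -/
structure HI (N : ℕ) (H : P6 → (Fin 2 → ℂ) → ℝ) : Prop where
  herm : ∀ x ∈ Z0 N, Herm (H x)
  pos : ∀ x ∈ Z0 N, ∀ v, v ≠ 0 → 0 < H x v
  hom : ∀ x ∈ Z0 N, ∀ t : ℂ, t ≠ 0 → ∀ v : Fin 2 → ℂ,
    H (x.1, t • x.2.1, (t ^ N * x.2.2.1, t ^ N * x.2.2.2)) ![v 0, v 1 / t ^ N] = ‖t‖ ^ 2 * H x v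
  bd : ∃ K, ∀ x ∈ Z0 N, ∀ v, H x v ≤ K * ‖x.2.1‖ ^ 2 * ‖q0 N x v‖
  cont : ContinuousOn (fun p : P6 × (Fin 2 → ℂ) => H p.1 p.2) (Z0 N ×ˢ Set.univ)
  sup : ∀ (x : ℂ → P6) (v : ℂ → Fin 2 → ℂ) (z₀ : ℂ), AnalyticAt ℂ x z₀ → AnalyticAt ℂ v z₀ →
    (∀ᶠ z in 𝓝 z₀, x z ∈ Z0 N) → (∀ c : ℂ, deriv (fun z => (x z).2.1) z₀ ≠ c • (x z₀).2.1) →
    v z₀ ≠ 0 → Sup (fun z => H (x z) (v z)) z₀

def fib (N : ℕ) (l : V) : Set P6 := {x | Phi N x = (0, l)}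

def vec (N : ℕ) (x : P6) (y : V) : Fin 2 → ℂ := Classical.epsilon fun v => q0 N x v = y

/-- the averaged metric -/
def GG (N : ℕ) (H : P6 → (Fin 2 → ℂ) → ℝ) (l y : V) : ℝ := ∑ᶠ x ∈ fib N l, H x (vec N x y)

/-- index of `z i j` -/
def ix (i : Fin 2) (j : Fin 3) : Fin 8 := ⟨3 * i.val + j.val, by omega⟩

def pt (N : ℕ) (p : (ℂ × ℂ) × V × (ℂ × ℂ)) : V × Zc :=
  (p.2.1, ![p.1.1 * p.2.1 0 ^ N, p.1.1 * p.2.1 1 ^ N, p.1.1 * p.2.1 2 ^ N,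
    p.1.2 * p.2.1 0 ^ N, p.1.2 * p.2.1 1 ^ N, p.1.2 * p.2.1 2 ^ N, p.2.2.1, p.2.2.2])

/-- the cone over the surface -/
def XX (N : ℕ) : Set (V × Zc) :=
  {x | x.1 ≠ 0 ∧ x.2 ≠ 0 ∧ (∀ i j l, x.2 (ix i j) * x.1 l ^ N = x.2 (ix i l) * x.1 j ^ N) ∧
    ∑ j, Rc (Dj j) (x.2 (ix 0 j)) (x.2 (ix 1 j)) = bb (x.2 6) (x.2 7)}

def OO (α : Fin 2 × Fin 3) : Set (V × Zc) := {x | x.1 α.2 ≠ 0 ∧ x.2 (ix α.1 α.2) ≠ 0}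

/-- normalised coordinates in the chart `α` -/
def et (α : Fin 2 × Fin 3) (x : V × Zc) (k : Fin 2) : ℂ := x.2 (ix k α.2) / x.2 (ix α.1 α.2)

def mu (α : Fin 2 × Fin 3) (x : V × Zc) : V := fun l => x.1 l / x.1 α.2

def bc (α : Fin 2 × Fin 3) (x : V × Zc) : ℂ × ℂ :=
  (x.2 6 / x.2 (ix α.1 α.2), x.2 7 / x.2 (ix α.1 α.2))

def sh (α β : Fin 2 × Fin 3) (x : V × Zc) : ℂ :=
  if α.1 = β.1 then 0 else ((β.1.val : ℂ) - α.1.val) *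
    ((bc α x).1 * et α x 1 + (bc α x).2 * et α x 0) / (et α x 0 * et α x 1) ^ 2

def TT (N : ℕ) (α β : Fin 2 × Fin 3) (x : V × Zc) : M2 :=
  mu α x β.2 • !![et α x β.1, 0; -(et α x β.1 * sh α β x), mu α x β.2 ^ N / et α x β.1]

/-- the quadratic map on the dual bundle in the chart `α` -/
def qc (N : ℕ) (α : Fin 2 × Fin 3) (x : V × Zc) (v : Fin 2 → ℂ) : V :=
  if α.1 = 0 then
    qv (A0 (et α x 1)) (B0 (et α x 1) (bc α x).1 (bc α x).2) (C0 (et α x 1) (pw N (mu α x))) v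
  else qv (A1 (et α x 0)) (B1 (et α x 0) (bc α x).1 (bc α x).2) (C1 (et α x 0) (pw N (mu α x))) v

/-- dual norm -/
def dn (h : M2) (v : Fin 2 → ℂ) : ℝ := (v ⬝ᵥ h⁻¹ *ᵥ star v).re

def Hf (N : ℕ) (h : Fin 2 × Fin 3 → V × Zc → M2) (x : P6) (v : Fin 2 → ℂ) : ℝ :=
  dn (h (0, 0) (pt N ((1, x.1), x.2))) ![x.2.1 0 * v 0, x.2.1 0 ^ (N + 1) * v 1]

end

end Vale.Agent.P296
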